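import Vale.Agent.P352X.TPD.Spec
import Vale.Agent.P352X.R.LIE
import Vale.Agent.P352X.R.WK
import Vale.Agent.P352Y.Ext

/-!
# P352X, row TPD.FIN: distributions that agree up to a given order (helper17)
-/

set_option linter.all false

open MeasureTheory Filter Topology Set
open scoped SchwartzMap ComplexConjugate ContDiff

namespace Vale.Agent.P352X.TPD.Fi

open Vale.Agent.P352 Vale.Agent.P352.GF Vale.Agent.P352.BW Api4
open Vale.Agent.P352Y (mon f2 jet exists_van tsupport_comp temp_mon)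

noncomputable section

variable {G G' : Type*} [NormedAddCommGroup G] [NormedSpace ℂ G] [NormedAddCommGroup G']
  [NormedSpace ℂ G'] {m : ℕ} {Λ Λ' M M' : S2 →L[ℂ] G} {A B : S2 →L[ℂ] S2}

/-- functions that vanish of order `n` on the diagonal -/
def Vn (n : ℕ) (F : S2) : Prop :=
  ∃ (γ : Fin n → Ix) (H : S2), ∀ z, F z = mon γ (z.1 - z.2) * H z

/-- `Λ` agrees with the distribution `Λ'` of order `m` up to contact terms of order `m` -/
structure Rel (m : ℕ) (Λ Λ' : S2 →L[ℂ] G) : Prop where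
  off : ∀ F, OffD F → Λ F = Λ' F
  van : ∀ F, Vn (m + 1) F → Λ F = Λ' F
  ord : ∃ C, 0 ≤ C ∧ ∀ F, ‖Λ' F‖ ≤ C * ST.sn (V × V) ℂ m F

/-- operators on test functions that respect the diagonal -/
structure Adm (A : S2 →L[ℂ] S2) : Prop where
  off : ∀ F, OffD F → OffD (A F)
  bd : ∀ m, ∃ C, 0 ≤ C ∧ ∀ F, ST.sn (V × V) ℂ m (A F) ≤ C * ST.sn (V × V) ℂ m F
  van : ∀ n F, Vn n F → ∃ (a : (Fin n → Ix) → ℂ) (F' : (Fin n → Ix) → S2),
    (∀ δ, Vn n (F' δ)) ∧ A F = ∑ δ, a δ • F' δ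

theorem Rel.comp (h : Rel m Λ Λ') (T : G →L[ℂ] G') (hA : Adm A) :
    Rel m (T ∘L Λ ∘L A) (T ∘L Λ' ∘L A) where
  off F hF := congrArg T (h.off _ (hA.off F hF))
  van F hF := by
    obtain ⟨a, F', h1, h2⟩ := hA.van _ F hF
    simp only [ContinuousLinearMap.comp_apply, h2, map_sum, map_smul, h.van _ (h1 _)]
  ord := by
    obtain ⟨C, h1, h2⟩ := h.ord
    obtain ⟨C', h3, h4⟩ := hA.bd m
    refine ⟨‖T‖ * (C * C'), by positivity, fun F => (T.le_opNorm _).trans ?_⟩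
    rw [mul_assoc, mul_assoc]
    gcongr
    exact (h2 _).trans (mul_le_mul_of_nonneg_left (h4 F) h1)

theorem Rel.add (h : Rel m Λ Λ') (k : Rel m M M') : Rel m (Λ + M) (Λ' + M') where
  off F hF := congrArg₂ (· + ·) (h.off F hF) (k.off F hF)
  van F hF := congrArg₂ (· + ·) (h.van F hF) (k.van F hF)
  ord := by
    obtain ⟨C, h1, h2⟩ := h.ord
    obtain ⟨C', h3, h4⟩ := k.ord
    exact ⟨C + C', add_nonneg h1 h3, fun F =>
      (norm_add_le _ _).trans ((add_le_add (h2 F) (h4 F)).trans_eq (add_mul _ _ _).symm)⟩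

theorem Rel.sub (h : Rel m Λ Λ') (k : Rel m M M') : Rel m (Λ - M) (Λ' - M') where
  off F hF := congrArg₂ (· - ·) (h.off F hF) (k.off F hF)
  van F hF := congrArg₂ (· - ·) (h.van F hF) (k.van F hF)
  ord := by
    obtain ⟨C, h1, h2⟩ := h.ord
    obtain ⟨C', h3, h4⟩ := k.ord
    exact ⟨C + C', add_nonneg h1 h3, fun F =>
      (norm_sub_le _ _).trans ((add_le_add (h2 F) (h4 F)).trans_eq (add_mul _ _ _).symm)⟩

theorem Rel.sum {ι : Type*} (s : Finset ι) {X X' : ι → S2 →L[ℂ] G} (h : ∀ i, Rel m (X i) (X' i)) :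
    Rel m (∑ i ∈ s, X i) (∑ i ∈ s, X' i) :=
  Finset.sum_induction (fun i => (X i, X' i)) (fun p => Rel m p.1 p.2) (fun _ _ => Rel.add)
    ⟨fun _ _ => rfl, fun _ _ => rfl, 0, le_rfl, fun F => by simp⟩ (s := s) (fun i _ => h i)
    |> fun k => by simpa only [Prod.fst_sum, Prod.snd_sum] using k

theorem Rel.kill (h : Rel m Λ Λ') (h0 : ∀ F, OffD F → Λ' F = 0) : (∀ F, OffD F → Λ F = 0) ∧
    ∀ (γ : Fin (m + 1) → Ix) (H F : S2), (∀ z, F z = mon γ (z.1 - z.2) * H z) → Λ F = 0 := by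
  obtain ⟨C, h1, h2⟩ := h.ord
  exact ⟨fun F hF => (h.off F hF).trans (h0 F hF), fun γ H F e =>
    (h.van F ⟨γ, H, e⟩).trans (exists_van h0 h1 h2 γ H F e)⟩

theorem adm_one : Adm (.id ℂ S2) where
  off _ h := h
  bd _ := ⟨1, zero_le_one, fun _ => (one_mul _).ge⟩
  van n F h := ⟨Pi.single h.choose 1, fun _ => F, fun _ => h, by
    simp [← Finset.sum_smul]⟩

theorem Adm.comp (hA : Adm A) (hB : Adm B) (h : ∀ n F, Vn n F → Vn n (B F)) : Adm (A ∘L B) where
  off F hF := hA.off _ (hB.off F hF)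
  bd m := by
    obtain ⟨C, h1, h2⟩ := hA.bd m
    obtain ⟨C', h3, h4⟩ := hB.bd m
    exact ⟨C * C', mul_nonneg h1 h3, fun F =>
      (h2 _).trans (by rw [mul_assoc]; exact mul_le_mul_of_nonneg_left (h4 F) h1)⟩
  van n F hF := hA.van n _ (h n F hF)

theorem mon_lin {k : ℕ} (γ : Fin k → Ix) (L : Ix → V) (s : ℝ) (u : V) : mon γ (sim s L 0 u) =
    ∑ δ : Fin k → Ix, ((s ^ k * ∏ i, L (δ i) (γ i) : ℝ) : ℂ) * mon δ u := by
  simp only [mon, sim, Pi.zero_apply, zero_add, Complex.ofReal_mul, Finset.prod_mul_distrib,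
    Finset.prod_const, Finset.card_univ, Fintype.card_fin, Complex.ofReal_sum,
    Complex.ofReal_prod, Complex.ofReal_pow, mul_assoc, ← Finset.mul_sum, Finset.prod_univ_sum,
    Fintype.piFinset_univ, mul_comm (u _ : ℂ)]

theorem adm_aff (e : V ≃L[ℝ] V) (s : ℝ) (L : Ix → V) (a : V) (he : ∀ u, e u = sim s L 0 u)
    (hA : ∀ (F : S2) z, A F z = F (e z.1 + a, e z.2 + a)) : Adm A where
  off F hF x hx := hF _ (tsupport_comp (e := fun z : V × V => (e z.1 + a, e z.2 + a))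
    (by fun_prop) (fun z h => (hA F z).trans h) hx)
  bd m := by
    obtain ⟨C, hC⟩ := lie_row.bd (V × V) m (max ‖(e.prodCongr e : V × V →L[ℝ] V × V)‖
      ‖((e.prodCongr e).symm : V × V →L[ℝ] V × V)‖)
    refine ⟨|C * (1 + ‖(a, a)‖) ^ m|, abs_nonneg _, fun F => ?_⟩
    have := hC (e.prodCongr e) (a, a) F (A F) (le_max_left _ _) (le_max_right _ _) (hA F)
    simp only [sn_eq] at this
    exact this.trans (mul_le_mul_of_nonneg_right (le_abs_self _) (apply_nonneg _ _))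
  van n F := fun ⟨γ, H, h⟩ => ⟨fun δ => (s ^ n * ∏ i, L (δ i) (γ i) : ℝ),
    fun δ => f2.mul (mon δ) 1 (A H), fun δ => ⟨δ, A H, fun z => by
      rw [f2.mul_apply (temp_mon δ), one_smul]; rfl⟩, SchwartzMap.ext fun z => by
      simp only [SchwartzMap.sum_apply, SchwartzMap.smul_apply, f2.mul_apply (temp_mon _),
        one_smul, smul_eq_mul, ← mul_assoc, ← Finset.sum_mul, P352Y.f2_lam, ← mon_lin]
      rw [hA, hA, h, add_sub_add_right_eq_sub, ← map_sub, he]⟩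

theorem adm_sim {s : ℝ} {L : Ix → V} (hs : 0 < s) (hL : IsLor L) (a : V) :
    Adm (Wk.sim2 hs hL a) :=
  adm_aff (H755.simE s L hs hL).toContinuousLinearEquiv s L a (H755.simE_apply hs hL) fun F z => by
    rw [Wk.sim2_apply hs hL a F z.1 z.2, HM.sim_at s L a, HM.sim_at s L a z.2,
      ← H755.simE_apply hs hL, ← H755.simE_apply hs hL]
    rfl

/-- `F ↦ F (-x, -y)` -/
def ng2 : S2 →L[ℂ] S2 :=
  SchwartzMap.compCLMOfContinuousLinearEquiv ℂ (ContinuousLinearEquiv.neg ℝ (M := V × V))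

theorem ng2_apply (F : S2) (z : V × V) : ng2 F z = F (-z.1, -z.2) := rfl

theorem adm_ng : Adm ng2 :=
  adm_aff (ContinuousLinearEquiv.neg ℝ) (-1) GF.one 0 (fun u => funext fun n => by
    simp [sim, GF.one, bas]) fun F z => by simp [ng2_apply]

/-- multiplication -/
def ml (κ : V × V → ℂ) : S2 →L[ℂ] S2 := SchwartzMap.smulLeftCLM ℂ κ

theorem ml_apply {κ : V × V → ℂ} (h : Dc κ) (F : S2) (z : V × V) : ml κ F z = κ z * F z :=
  SchwartzMap.smulLeftCLM_apply_apply (Ap.cs_temp h) F z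

theorem vn_ml {κ : V × V → ℂ} (h : Dc κ) (n : ℕ) (F : S2) : Vn n F → Vn n (ml κ F) :=
  fun ⟨γ, H, e⟩ => ⟨γ, ml κ H, fun z => by rw [ml_apply h, ml_apply h, e, mul_left_comm]⟩

theorem adm_ml {κ : V × V → ℂ} (h : Dc κ) : Adm (ml κ) where
  off F hF x hx := hF x (tsupport_comp (e := id) continuous_id
    (fun z k => by rw [ml_apply h, show F z = 0 from k, mul_zero]) hx)
  bd m := by
    obtain ⟨C, h1, h2⟩ := P352Y.bd_dc h m
    exact ⟨2 ^ m * 2 ^ (m + 0) * C, by positivity, fun F =>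
      ST.sn_mul (l := 0) (by simpa using h2) F _ (ml_apply h F)⟩
  van n F hF := adm_one.van n _ (vn_ml h n F hF)

end

end Vale.Agent.P352X.TPD.Fi
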