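import Vale.Agent.P352X.TPD.FIN.A

/-!
# P352X, row TPD.FIN: unit tensors and symmetrisation (helper17)
-/

set_option linter.all false

open MeasureTheory Filter Topology Set
open scoped SchwartzMap ComplexConjugate ContDiff

namespace Vale.Agent.P352X.TPD.Fi

open Vale.Agent.P352 Vale.Agent.P352.GF Vale.Agent.P352.BW Api4
open Vale.Agent.P352.H755 (Tst)
open Vale.Agent.P352Y (mon dc_mon)
open UniformSpace (Completion)

noncomputable section

variable {k : ℕ}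

/-- the index `(I, J, γ)` -/
def ix (I J : I2) (γ : Fin k → Ix) : Fin 4 ⊕ Fin k → Ix := Sum.elim ![I.1, I.2, J.1, J.2] γ

/-- the unit tensors -/
def un (I J : I2) (γ : Fin k → Ix) : Tn (Fin 4 ⊕ Fin k) := Pi.single (ix I J γ) 1

def ixE (k : ℕ) : I2 × I2 × (Fin k → Ix) ≃ (Fin 4 ⊕ Fin k → Ix) where
  toFun p := ix p.1 p.2.1 p.2.2
  invFun ν := ((ν (.inl 0), ν (.inl 1)), (ν (.inl 2), ν (.inl 3)), fun i => ν (.inr i))
  left_inv _ := rfl
  right_inv ν := funext fun i => by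
    rcases i with i | i
    · fin_cases i <;> rfl
    · rfl

theorem pb_un (L : Ix → V) (I J : I2) (γ : Fin k → Ix) : pb L (un I J γ) = ∑ K, ∑ M, ∑ δ,
    (L K.1 I.1 * L K.2 I.2 * (L M.1 J.1 * L M.2 J.2) * ∏ i, L (δ i) (γ i)) • un K M δ := by
  rw [pi_eq_sum_univ' (pb L (un I J γ)), ← (ixE k).sum_comp, Fintype.sum_prod_type]
  refine Finset.sum_congr rfl fun K _ => ?_
  rw [Fintype.sum_prod_type]
  refine Finset.sum_congr rfl fun M _ => Finset.sum_congr rfl fun δ _ => congrArg₂ _ ?_ rfl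
  simp [pb, un, ixE, Pi.single_apply, ix, Fintype.prod_sum_type, Fin.prod_univ_four, mul_assoc]

theorem pol_un (I J : I2) (γ : Fin k → Ix) (u : V) (ν : Fin 4 → Ix) : pol (un I J γ) u ν =
    if ν = ![I.1, I.2, J.1, J.2] then ∏ i, u (γ i) else 0 := by
  have e : ∀ δ, Sum.elim ν δ = ix I J γ ↔ ν = ![I.1, I.2, J.1, J.2] ∧ δ = γ := fun δ =>
    ⟨fun h => ⟨funext fun i => congrFun h (.inl i), funext fun i => congrFun h (.inr i)⟩,
      fun h => by rw [h.1, h.2]; rfl⟩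
  simp only [pol, un, Pi.single_apply, e]
  by_cases h : ν = ![I.1, I.2, J.1, J.2] <;> simp [h]

variable {D : Type*} [NormedAddCommGroup D] [InnerProductSpace ℂ D]

theorem psi_un (w : WW D) (I J : I2) (γ : Fin k → Ix) (χ : V → ℝ) :
    psi w (cs χ (pol (un I J γ))) = w I J ∘L ten2 (sch fun u => mon γ u * χ u) := by
  rw [psi, Finset.sum_eq_single ![I.1, I.2, J.1, J.2] (fun ν _ h => ?_) (by simp)]
  · simp [cs, pol_un, mon, mul_comm]
  · ext f
    have : ten2 (0 : Sch) f = 0 := SchwartzMap.ext fun z => zero_mul _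
    simp [cs, pol_un, h, sch_zero, this]

/-- permutations of the polynomial indices -/
def pm (σ : Equiv.Perm (Fin k)) : Tn (Fin 4 ⊕ Fin k) →ₗ[ℝ] Tn (Fin 4 ⊕ Fin k) :=
  LinearMap.funLeft ℝ ℝ fun ν => ν ∘ Equiv.sumCongr (Equiv.refl _) σ

/-- the symmetrisation -/
def Sy (k : ℕ) : Tn (Fin 4 ⊕ Fin k) →ₗ[ℝ] Tn (Fin 4 ⊕ Fin k) := (k.factorial : ℝ)⁻¹ • ∑ σ, pm σ

theorem pol_pm (σ : Equiv.Perm (Fin k)) (h : Tn (Fin 4 ⊕ Fin k)) : pol (pm σ h) = pol h := by
  funext u ν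
  refine Fintype.sum_equiv (Equiv.arrowCongr σ.symm (Equiv.refl _)) _ _ fun γ => congrArg₂ _
    (congrArg h (funext fun i => by rcases i with i | i <;> rfl)) (Equiv.prod_comp σ _).symm

theorem pol_Sy (h : Tn (Fin 4 ⊕ Fin k)) : pol (Sy k h) = pol h := by
  funext u ν
  have := fun σ => congrFun (congrFun (pol_pm σ h) u) ν
  simp only [pol] at this
  simp only [pol, Sy, LinearMap.smul_apply, LinearMap.sum_apply, Pi.smul_apply, Finset.sum_apply,
    smul_eq_mul, mul_assoc, Finset.sum_mul, ← Finset.mul_sum]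
  rw [Finset.sum_comm]
  simp [this, Fintype.card_perm, ← mul_assoc, k.factorial_ne_zero]

theorem Sy_pb (t : TEN) (L : Ix → V) (h : Tn (Fin 4 ⊕ Fin k)) :
    Sy k (pb L h) = pb L (Sy k h) := by
  simp only [Sy, LinearMap.smul_apply, LinearMap.sum_apply, map_smul, map_sum]
  exact congrArg _ (Finset.sum_congr rfl fun σ _ => (t.perm _ _ _ L h).symm)

theorem Sy_un (I J : I2) (γ : Fin k → Ix) (σ : Equiv.Perm (Fin k)) :
    Sy k (un I J (γ ∘ σ)) = Sy k (un I J γ) := by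
  simp only [Sy, LinearMap.smul_apply, LinearMap.sum_apply]
  refine congrArg _ (Fintype.sum_equiv (Equiv.mulRight σ⁻¹) _ _ fun τ => funext fun ν => ?_)
  simp only [pm, un, LinearMap.funLeft_apply, Pi.single_apply, funext_iff, Sum.forall, ix]
  refine if_congr (and_congr Iff.rfl ⟨fun h i => ?_, fun h i => ?_⟩) rfl rfl
  · simpa using h (σ⁻¹ i)
  · simpa using h (σ i)

theorem ext_sym {c : Ctx D} (t : TEN) {w : WW D} (h : Ext c w k) :
    ∃ B : Tn (Fin 4 ⊕ Fin k) →ₗ[ℝ] Fam D, (∀ h, Dat c w ((-1) ^ k) (pol h) (B h)) ∧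
      (∀ (s : ℝ) L h, 0 < s → IsLor L → s ^ k • ga c s L (B (pb L h)) = B h) ∧
      ∀ I J γ (σ : Equiv.Perm (Fin k)), B (un I J (γ ∘ σ)) = B (un I J γ) := by
  obtain ⟨B, h1, h2⟩ := h
  exact ⟨B ∘ₗ Sy k, fun h => pol_Sy h ▸ h1 (Sy k h), fun s L h hs hL => by
    simpa only [LinearMap.comp_apply, Sy_pb t] using h2 s L (Sy k h) hs hL,
    fun I J γ σ => congrArg B (Sy_un I J γ σ)⟩

end

end Vale.Agent.P352X.TPD.Fi
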